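import Vale.Agent.P307.GRel
import Vale.Agent.P307.MUp4

open FirstOrder Cardinal Vale.Agent.P307S

universe u

theorem Vale.Agent.Results.P307.All.result (l κ κ' : Cardinal.{u})
    (hκ : Order.succ (2 ^ Order.succ ((2 : Cardinal.{u}) ^ l)) ≤ κ)
    (hκ' : Order.succ (Order.succ (2 ^ l)) ≤ κ') :
    (∀ (R : Type u) [Ring R] (K : MAEC R), K.LSle l →
      (K.SumCl ∨ ∀ (M : Type u) [AddCommGroup M] [Module R M], K.mem M →
        SmallSum R l M ∨ Module.Projective R M) → K.Cat κ → K.Cat κ') ∧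
    ∀ (L : FirstOrder.Language.{u, u}) (K : AEC L), K.LSle l →
      ((∀ (M : Type u) [L.Structure M], K.mem M → SparseG L l M) ∨
        ((∀ n, L.Functions n → n ≤ 1) ∧ K.FreeAP) ∨ ((∀ n, L.Functions n → n = 1) ∧ K.DisjCl) ∨
        (κ ≤ κ' ∧ ∀ (M : Type u) [L.Structure M], K.mem M → #M = κ → SparseG L l M)) →
      K.Cat κ → K.Cat κ' := by
  have h0 : Order.succ ((2 : Cardinal.{u}) ^ l) < κ := (cantor _).trans (Order.succ_le_iff.1 hκ)
  refine ⟨fun R _ K hK h hcat => h.elim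
    (fun h => mcat_sum hK h (Order.succ_le_iff.1 hκ) hcat (Order.succ_le_iff.1 hκ'))
    fun h => mcat hK h0 hcat (fun M _ _ hM _ => (h M hM).elim id fun _ => ss_proj hK.1 hK.2.1)
      (Order.succ_le_iff.1 hκ'), fun L K hK h hcat => ?_⟩
  have h1 : (2 : Cardinal.{u}) ^ l < Order.succ (Order.succ (2 ^ l)) :=
    (Order.lt_succ _).trans_le (Order.le_succ _)
  have h3 := Order.succ_le_of_lt h0
  have h2 : l < κ := (cantor l).trans (h1.trans_le h3)
  have hK' := rel_ls hK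
  have hc := rel_cat.2 hcat
  refine rel_cat.1 ?_
  rcases h with h | h | h | h
  · exact up hK' h3 hc h1 h3 (fun M _ ⟨_, g, hM⟩ _ => (sparse_iff g).2 (h M hM)) hκ'
  · exact up hK' h3 hc h1 h3 (fun M _ hM _ => free_sparse hK' h2 hc (rel_free h.1 h.2) M hM) hκ'
  · exact up hK' h3 hc h1 h3 (fun M _ hM _ => disj_sparse hK' h2 hc (rel_disj h.1 h.2) M hM) hκ'
  · exact up hK' h3 hc (h1.trans_le h3) le_rfl (fun M _ hM hm => sparse_up hK' h2
      (fun N _ ⟨_, g, hN⟩ e => (sparse_iff g).2 (h.2 N hN e)) hM hm) h.1
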