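import Vale.Agent.P307.MKW

open Cardinal Vale.Agent.P307S

universe u

theorem Vale.Agent.Results.P307.Mod.result (R : Type u) [Ring R]
    (l : Cardinal.{u}) (K : MAEC R) (hK : K.LSle l) (κ : Cardinal.{u})
    (hκ : Order.succ (Order.succ (2 ^ l)) ≤ κ) (hcat : K.Cat κ) :
    ((∀ (M : Type u) [AddCommGroup M] [Module R M], K.mem M →
        SmallSum R l M ∨ Module.Projective R M) →
      ∀ κ', Order.succ (Order.succ (2 ^ l)) ≤ κ' → K.Cat κ') ∧
    (K.SumCl → ∀ κ', Order.succ (Order.succ (2 ^ l)) ≤ κ' → κ' ≤ κ → K.Cat κ') :=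
  ⟨fun h _ hκ' => mcat hK (Order.succ_le_iff.1 hκ) hcat
      (fun M _ _ hM _ => (h M hM).elim id fun _ => ss_proj hK.1 hK.2.1) (Order.succ_le_iff.1 hκ'),
    fun h _ hκ' h' => mcat_down hK (Order.succ_le_iff.1 hκ) hcat h (Order.succ_le_iff.1 hκ') h'⟩
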