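import Vale.Agent.P307.MUp4

open Cardinal Vale.Agent.P307S

universe u

theorem Vale.Agent.Results.P307.ModSum.result (R : Type u) [Ring R]
    (l : Cardinal.{u}) (K : MAEC R) (hK : K.LSle l)
    (h : K.SumCl ∨ ∀ (M : Type u) [AddCommGroup M] [Module R M], K.mem M →
      SmallSum R l M ∨ Module.Projective R M) (κ : Cardinal.{u})
    (hκ : Order.succ (2 ^ Order.succ ((2 : Cardinal.{u}) ^ l)) ≤ κ) (hcat : K.Cat κ)
    (κ' : Cardinal.{u}) (hκ' : Order.succ (Order.succ (2 ^ l)) ≤ κ') : K.Cat κ' :=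
  h.elim (fun h => mcat_sum hK h (Order.succ_le_iff.1 hκ) hcat (Order.succ_le_iff.1 hκ'))
    fun h => mcat hK ((cantor _).trans (Order.succ_le_iff.1 hκ)) hcat
      (fun M _ _ hM _ => (h M hM).elim id fun _ => ss_proj hK.1 hK.2.1) (Order.succ_le_iff.1 hκ')
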