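import Vale.Agent.P307.SMain

open FirstOrder Cardinal Vale.Agent.P307S

universe u

theorem Vale.Agent.Results.P307.Sparse.result (L : FirstOrder.Language.{u, u}) [L.IsRelational]
    (l : Cardinal.{u}) (K : AEC L) (hK : K.LSle l) (κ : Cardinal.{u})
    (hκ : Order.succ (Order.succ (2 ^ l)) ≤ κ) (hcat : K.Cat κ) :
    (((∀ (M : Type u) [L.Structure M], K.mem M → Sparse L l M) ∨ K.FreeAP) →
      ∀ κ', Order.succ (Order.succ (2 ^ l)) ≤ κ' → K.Cat κ') ∧
    ((∀ (M : Type u) [L.Structure M], K.mem M → #M = κ → Sparse L l M) →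
      ∀ κ', κ ≤ κ' → K.Cat κ') := by
  have h1 : (2 : Cardinal.{u}) ^ l < Order.succ (Order.succ (2 ^ l)) :=
    (Order.lt_succ _).trans_le (Order.le_succ _)
  have h2 : l < κ := (cantor l).trans (h1.trans_le hκ)
  refine ⟨fun h κ' hκ' => up hK hκ hcat h1 hκ (fun M _ hM _ => ?_) hκ',
    fun h κ' hκ' => up hK hκ hcat (h1.trans_le hκ) le_rfl
      (fun M _ hM hc => sparse_up hK h2 h hM hc) hκ'⟩
  exact h.elim (fun h => h M hM) fun h => free_sparse hK h2 hcat h M hM
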